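import Vale.Agent.P181.S.Eng
import Vale.Agent.P181.S.DTab

/-! Kernel engine, second part: lower bounds by translation, the stable upper bound, the exact
multiplicities in `h_6[h_b]`, and the covering checks.  Rows have 78 lanes. -/

namespace Vale.Agent.P181.K

noncomputable def bnd2 (x y : Bool) : Bool := cnd x y false

noncomputable def lane (X i : Nat) : Nat :=
  Nat.land (Nat.shiftRight X (Nat.mul 56 i)) 72057594037927935

/-- The value `v` on the lanes `lo ≤ p < hi`. -/
noncomputable def sg (v lo hi : Nat) : Nat :=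
  Nat.shiftLeft (Nat.mul v (on 56 (Nat.sub hi lo))) (Nat.mul 56 lo)
noncomputable def sgM (v lo hi : Nat) : Nat := frc lo fun lo => frc hi fun hi => sg v lo hi

/-- The value `v` on the first `n` rows. -/
noncomputable def rw1 (n : Nat) : Nat := on 56 (Nat.mul 78 n)
noncomputable def rwM (n : Nat) : Nat := frc n rw1

noncomputable def wL : List Nat :=
  [44, 44, 44, 44, 44, 44, 43, 43, 40, 40, 39, 39, 37, 37, 36, 36, 32, 32, 31, 31, 29, 29, 28, 28, 25]

noncomputable def wm (b m : Nat) : Nat := Nat.mul (Nat.sub (Nat.pow 2 (nth 0 wL b)) 1) (rwM m)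

/-- `720` times the residues of the table on the valid lanes; row `r` is `q = a + 1 + r`. -/
noncomputable def vz (Bm am cm : Nat) (nr : Nat → Nat → Nat → Nat)
    (ln : Nat → Nat → Nat → Nat → Nat) (lv : List Tr) (b a c d : Nat) : Nat :=
  cnd (bnd2 (Nat.ble b Bm) (bnd2 (Nat.ble 1 b) (bnd2 (Nat.ble (Nat.succ a) am)
      (bnd2 (Nat.ble (Nat.succ c) cm) (bnd2 (Nat.ble (Nat.succ c) a) (Nat.ble (Nat.succ d) c))))))
    (frc (Nat.sub (nn nr b a c d) (Nat.succ a)) fun m =>
      (fun B t => Nat.mul 720 (Nat.land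
        (hor 4368 m fun j => frc (Nat.sub (Nat.add a m) j) fun q =>
          Nat.land (ex B (Nat.sub m (Nat.succ j)))
            (sgM 140737488355327 (Nat.succ q) (mn (ln q a c d) (Nat.div (Nat.sub t q) 2))))
        (wm b m)))
      (frc (Nat.add (Nat.add (Nat.mul 4096 a) (Nat.mul 64 c)) d) (blk lv b))
      (Nat.sub (Nat.add (Nat.mul 6 b) 16) (Nat.add (Nat.add a c) d))) 0

noncomputable def vv (l1 l2 l3 : List Tr) (K : Nat) : Nat :=
  frc (Nat.land (Nat.shiftRight K 2) 31) fun b => frc (Nat.shiftRight K 19) fun a =>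
    frc (Nat.land (Nat.shiftRight K 13) 63) fun c => frc (Nat.land (Nat.shiftRight K 7) 63) fun d =>
      cnd (Nat.ble (Nat.land K 3) 1) (vz 13 22 64 nr1 ln1 l1 b a c d)
        (cnd (Nat.ble (Nat.land K 3) 2) (vz 24 39 2 nr2 ln2 l2 b a c d)
          (vz 24 5 64 nr3 ln2 l3 b a c d))

noncomputable def fd (x s : Nat) : Nat := Nat.land (Nat.shiftRight x s) 63

/-- `y` encodes `(c, μ_2, …, μ_6)`; the test certifies that `s_μ` occurs in `h_c[h_6]`. -/
noncomputable def nz (V : Nat → Nat) (y : Nat) : Bool :=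
  cnd (Nat.beq y 0) true
    (bnd2 (bnd2 (Nat.ble (fd y 17) (fd y 11)) (Nat.ble (fd y 23) 62))
      (Nat.ble 1 (lane
        (frc (Nat.add (Nat.add (Nat.add (Nat.mul 4 (Nat.land y 31)) (Nat.mul 128 (fd y 29)))
          (Nat.mul 8192 (Nat.succ (fd y 23)))) (Nat.mul 524288 (Nat.add (fd y 17) 2))) V)
        (Nat.add (Nat.mul 78 (Nat.sub (fd y 11) (fd y 17))) (Nat.add (fd y 5) 4)))))

/-- The translated lower bound.  `x` encodes the zone (2 bits), the level `b'` (5 bits), then `y`. -/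
noncomputable def tv (V : Nat → Nat) (b a c d x : Nat) : Nat :=
  cnd (bnd2 (Nat.ble (Nat.add (Nat.land (Nat.shiftRight x 2) 31)
        (Nat.land (Nat.shiftRight x 7) 31)) b)
      (bnd2 (Nat.ble (fd x 24) a) (bnd2 (Nat.ble (fd x 30) c) (bnd2 (Nat.ble (fd x 36) d)
        (frc (Nat.shiftRight x 7) (nz V))))))
    (Nat.shiftLeft
      (frc (Nat.add (Nat.add (Nat.add (Nat.land x 127) (Nat.mul 128 (Nat.sub d (fd x 36))))
        (Nat.mul 8192 (Nat.sub c (fd x 30)))) (Nat.mul 524288 (Nat.sub a (fd x 24)))) V)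
      (Nat.mul 56 (Nat.add (Nat.mul 78 (Nat.sub (fd x 18) (fd x 24))) (fd x 12)))) 0

noncomputable def orL (f : Nat → Nat) (l : List Nat) (C : Nat) : Nat :=
  List.rec (motive := fun _ => Nat) C (fun x _ r => Nat.lor r (f x)) l

/-- Bit 55 on the lanes `q < p`, `2 p + q < t` of the rows `q = a + 1 + r`, `r < m`. -/
noncomputable def nd (a t m : Nat) : Nat :=
  hor 4368 m fun j => frc (Nat.sub (Nat.add a m) j) fun q =>
    sgM 36028797018963968 (Nat.succ q) (Nat.div (Nat.sub (Nat.succ t) q) 2)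
noncomputable def ndM (a t m : Nat) : Nat := frc a fun a => frc t fun t => frc m fun m => nd a t m

noncomputable def sub55 (N C : Nat) : Bool := Nat.beq (Nat.land N C) N

/-! The stable upper bound. -/

noncomputable def dpM (i : Nat) : Nat := frc i (nth 0 dpL)
noncomputable def bdM (i : Nat) : Nat := frc i (nth 0 bdL)

/-- `DD t j k` modulo `2 ^ 80`, for `K = 128 * (5 * t + j) + k`. -/
noncomputable def dM (K : Nat) : Nat :=
  Nat.add (lane (dpM (Nat.shiftRight K 7)) (Nat.land K 127))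
    (Nat.sub 1208925819614629174706176 (bdM (Nat.shiftRight K 7)))

noncomputable def dnM (i : Nat) : Nat := Nat.sub (Nat.mul (Nat.mul 2 (bdM i)) (rwM 1)) (dpM i)

noncomputable def ab (v b : Nat) : Nat := cnd (Nat.ble b v) (Nat.sub v b) (Nat.sub b v)

noncomputable def rowI (i j q : Nat) : Nat :=
  (fun bi bj vi vj => Nat.add (Nat.add
      (Nat.mul (ab vj bj) (cnd (Nat.ble bj vj) (dpM i) (frc i dnM)))
      (Nat.mul (ab vi bi) (cnd (Nat.ble bi vi) (frc j dnM) (dpM j))))
      (Nat.mul (Nat.sub (Nat.mul (Nat.mul 2 bi) bj)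
        (Nat.add (Nat.mul (ab vj bj) bi) (Nat.mul (ab vi bi) bj))) (rwM 1)))
    (bdM i) (bdM j) (lane (dpM i) q) (lane (dpM j) q)

noncomputable def i1 (u : Nat) : Nat :=
  Nat.add (Nat.mul 5 (Nat.div u 10)) (nth 0 [0, 0, 0, 0, 1, 1, 1, 2, 2, 3] (Nat.mod u 10))
noncomputable def i2 (u : Nat) : Nat :=
  Nat.add (Nat.mul 5 (Nat.div u 10)) (nth 0 [1, 2, 3, 4, 2, 3, 4, 3, 4, 4] (Nat.mod u 10))

/-- The bias of term number `u < 110`. -/
noncomputable def be (u : Nat) : Nat := Nat.mul (Nat.mul 2 (bdM (i1 u))) (bdM (i2 u))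

/-- Row `q` of the biased array of term `u`, for `K = 128 * u + q`. -/
noncomputable def rowA (K : Nat) : Nat :=
  frc (i1 (Nat.shiftRight K 7)) fun i => frc (i2 (Nat.shiftRight K 7)) fun j =>
    rowI i j (Nat.land K 127)

noncomputable def ctP (a m u : Nat) : Nat :=
  hor 4368 m fun j => frc (Nat.sub (Nat.add (Nat.add (Nat.mul 128 u) a) m) j) rowA
noncomputable def ctN (a m u : Nat) : Nat :=
  Nat.sub (Nat.mul (Nat.mul 2 (frc u be)) (rwM m)) (frc u (ctP a m))

noncomputable def tm (cp cn : Nat → Nat) (u s : Nat) (k : Nat → Nat → Bool) (A O : Nat) : Bool :=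
  frc u fun u => cnd (Nat.beq s 0) (k A O)
    (cnd (Nat.ble s 604462909807314587353088)
      (k (Nat.add A (Nat.mul s (cp u))) (Nat.add O (Nat.mul s (be u))))
      ((fun s' => k (Nat.add A (Nat.mul s' (cn u))) (Nat.add O (Nat.mul s' (be u))))
        (Nat.sub 1208925819614629174706176 s)))

noncomputable def n2 (x y z w : Nat) : Nat :=
  Nat.sub (Nat.add (Nat.mul x y) 1496577676626844588240573268701473812127674924007424) (Nat.mul z w)

noncomputable def n3 (w x y z p q r : Nat) : Nat :=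
  Nat.land (Nat.mul w (Nat.sub (Nat.add (Nat.add (Nat.mul x p) (Nat.mul z r))
    1852673427797059126777135760139006525652319754650249024631321344126610074238976)
    (Nat.mul y q))) 1208925819614629174706175

noncomputable def cl2 (cp cn : Nat → Nat) (u wp wn a0 a1 a2 a3 a4 m01 m02 m03 m04 m12 m13 m14 m23 m24
    m34 : Nat) (k : Nat → Nat → Bool) : Nat → Nat → Bool :=
  tm cp cn u (n3 wp a2 a3 a4 m34 m24 m23)
    (tm cp cn (Nat.add u 1) (n3 wn a1 a3 a4 m34 m14 m13)
    (tm cp cn (Nat.add u 2) (n3 wp a1 a2 a4 m24 m14 m12)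
    (tm cp cn (Nat.add u 3) (n3 wn a1 a2 a3 m23 m13 m12)
    (tm cp cn (Nat.add u 4) (n3 wp a0 a3 a4 m34 m04 m03)
    (tm cp cn (Nat.add u 5) (n3 wn a0 a2 a4 m24 m04 m02)
    (tm cp cn (Nat.add u 6) (n3 wp a0 a2 a3 m23 m03 m02)
    (tm cp cn (Nat.add u 7) (n3 wp a0 a1 a4 m14 m04 m01)
    (tm cp cn (Nat.add u 8) (n3 wn a0 a1 a3 m13 m03 m01)
    (tm cp cn (Nat.add u 9) (n3 wp a0 a1 a2 m12 m02 m01) k)))))))))

noncomputable def cl1 (cp cn : Nat → Nat) (u wp wn a0 a1 a2 a3 a4 c0 c1 c2 c3 c4 d0 d1 d2 d3 d4 : Nat)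
    (k : Nat → Nat → Bool) : Nat → Nat → Bool :=
  cl2 cp cn u wp wn a0 a1 a2 a3 a4 (n2 c0 d1 c1 d0) (n2 c0 d2 c2 d0) (n2 c0 d3 c3 d0)
    (n2 c0 d4 c4 d0) (n2 c1 d2 c2 d1) (n2 c1 d3 c3 d1) (n2 c1 d4 c4 d1) (n2 c2 d3 c3 d2)
    (n2 c2 d4 c4 d2) (n2 c3 d4 c4 d3) k

noncomputable def wpL : List Nat :=
  [1, 15, 45, 15, 1208925819614629174706136, 1208925819614629174706056, 40,
    1208925819614629174706086, 1208925819614629174706086, 144, 120]

noncomputable def cl0 (cp cn : Nat → Nat) (a c d t : Nat) (k : Nat → Nat → Bool) :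
    Nat → Nat → Bool :=
  (fun wp A C D => cl1 cp cn (Nat.mul 10 t) wp (Nat.sub 1208925819614629174706176 wp)
      (frc A dM) (frc (Nat.add A 128) dM) (frc (Nat.add A 256) dM) (frc (Nat.add A 384) dM)
      (frc (Nat.add A 512) dM)
      (frc C dM) (frc (Nat.add C 128) dM) (frc (Nat.add C 256) dM) (frc (Nat.add C 384) dM)
      (frc (Nat.add C 512) dM)
      (frc D dM) (frc (Nat.add D 128) dM) (frc (Nat.add D 256) dM) (frc (Nat.add D 384) dM)
      (frc (Nat.add D 512) dM) k)
    (frc t (nth 0 wpL)) (Nat.add (Nat.mul 640 t) a) (Nat.add (Nat.mul 640 t) c)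
    (Nat.add (Nat.mul 640 t) d)

/-- Runs `k` on the sum of the 110 biased terms and on the total bias. -/
noncomputable def usum (cp cn : Nat → Nat) (a c d : Nat) (k : Nat → Nat → Bool) : Bool :=
  Nat.rec (motive := fun _ => Nat → Nat → Bool) k (fun t ih => cl0 cp cn a c d t ih) 11 0 0

noncomputable def scP (p q u : Nat) : Nat := lane (frc (Nat.add (Nat.mul 128 u) q) rowA) p
noncomputable def scN (p q u : Nat) : Nat := Nat.sub (Nat.mul 2 (be u)) (scP p q u)

/-- One exceptional lane, settled by the dual bound.  `y` encodes `p` (7 bits), `r` (6 bits),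
and a translation. -/
noncomputable def du (V : Nat → Nat) (b a c d y : Nat) : Nat :=
  frc (Nat.land y 127) fun p => frc (fd y 7) fun r => frc (Nat.add (Nat.succ a) r) fun q =>
    frc (Nat.sub (Nat.add (Nat.mul 6 b) 10)
        (Nat.add (Nat.add (Nat.add (Nat.add p q) a) c) d)) fun l0 =>
      frc (Nat.add (Nat.add l0 (Nat.mod l0 2)) 5) fun e =>
        cnd (bnd2 (Nat.ble p 77) (bnd2 (Nat.ble (Nat.sub e c) 77)
            (usum (scP (Nat.sub e c) (Nat.sub e a)) (scN (Nat.sub e c) (Nat.sub e a))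
              (Nat.sub e q) (Nat.sub e p) (Nat.mod l0 2) fun A O =>
              Nat.ble A (Nat.add O
                (lane (tv V b a c d (Nat.shiftRight y 13)) (Nat.add (Nat.mul 78 r) p))))))
          (Nat.shiftLeft 36028797018963968 (Nat.mul 56 (Nat.add (Nat.mul 78 r) p))) 0

/-- Zone class of a triple at level `b`, and the row limit of the exact computation. -/
noncomputable def zc (zT : List Nat) (b a c d : Nat) : Nat :=
  cnd (Nat.ble a 15) (Nat.land (Nat.shiftRight (frc b (nth 0 zT))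
    (Nat.mul 2 (Nat.add (Nat.add (Nat.mul 256 a) (Nat.mul 16 c)) d))) 3) 0
noncomputable def ez (zT zN : List Nat) (b a c d : Nat) : Nat :=
  frc (Nat.add (Nat.mul 4 b) (zc zT b a c d)) (nth 0 zN)

noncomputable def covS (V : Nat → Nat) (zT zN : List Nat) (tr dl : List (List Nat))
    (a c d KU n : Nat) (ih : Nat → Bool) (C : Nat) : Bool :=
  frc (Nat.sub 24 n) fun b =>
    (fun C' a' t => bnd2
        (sub55 (Nat.shiftLeft (ndM a' t (Nat.sub (Nat.div t 3) (Nat.succ a')))
            (Nat.mul 4368 (Nat.sub a' a)))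
          (orL (du V b a c d) (nth [] dl n) C')) (ih C'))
      (orL (fun x => Nat.add (tv V b a c d x) KU) (nth [] tr n) C)
      (mx a (Nat.sub (ez zT zN b a c d) 1))
      (Nat.sub (Nat.add (Nat.mul 6 b) 15) (Nat.add (Nat.add a c) d))

noncomputable def covO (V : Nat → Nat) (zT zN : List Nat) (tr dl : List (List Nat))
    (m a c d : Nat) : Bool :=
  usum (ctP a m) (ctN a m) a c d fun A O =>
    bnd2 (Nat.ble O 9007199254740992)
      ((fun KU t => bnd2
          (cnd (Nat.ble a 15) (sub55 (ndM a t (Nat.sub (Nat.div t 3) (Nat.succ a)))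
            (Nat.add KU (mkM 78 m 0))) true)
          (Nat.rec (motive := fun _ => Nat → Bool) (fun _ => true)
            (fun n ih => covS V zT zN tr dl a c d KU n ih) 18 0))
        (Nat.sub (Nat.mul (Nat.add O 36028797018963968) (rwM m)) A)
        (Nat.sub 159 (Nat.add (Nat.add a c) d)))

inductive Tc : Type
  | leaf : List (List Nat) → List (List Nat) → Tc
  | node : Nat → Tc → Tc → Tc

noncomputable def Tc.get (t : Tc) (n : Nat) (k : List (List Nat) → List (List Nat) → Bool) : Bool :=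
  Tc.rec (motive := fun _ => Bool) k (fun c _ _ l r => cnd (Nat.ble n c) l r) t

/-- Covering check for the triples `(a, c, d)` with `lo ≤ c < lo + n`. -/
noncomputable def covA (V : Nat → Nat) (zT zN : List Nat) (ct : Tc) (a lo n : Nat) : Bool :=
  frc (Nat.sub (Nat.div (Nat.sub 158 a) 3) (Nat.succ a)) fun m =>
    allB n fun i => frc (Nat.add lo i) fun c => allB c fun d =>
      cnd (Nat.ble (Nat.add (Nat.add (Nat.mul 4 a) c) d) 153)
        (ct.get (Nat.add (Nat.mul 64 c) d) fun tr dl => covO V zT zN tr dl m a c d) true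

/-! Exact multiplicities. -/

noncomputable def gs (b n j : Nat) (cf : List Nat) (tb : List (Nat → Nat)) (a c d : Nat) : Nat :=
  Nat.land (loop j fun k => Nat.mul (nth 0 cf k)
    (Nat.land (mulH 78 n b (Nat.succ k) (nth (fun _ => 0) tb k) a c d) (mkM 78 n 0))) (mkM 78 n 0)

noncomputable def tg (n : Nat) (g : Nat → Nat → Nat → Nat) (K : Nat) : Nat :=
  tabU g (fun a c d => neg 78 n (g a c d)) K

noncomputable def t0 (n K : Nat) : Nat := tg n (arr0 78) K
noncomputable def g1 (b n a c d : Nat) : Nat := gs b n 1 [1] [t0 n] a c d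
noncomputable def t1 (b n K : Nat) : Nat := tg n (g1 b n) K
noncomputable def g2 (b n a c d : Nat) : Nat := gs b n 2 [1, 1] [t1 b n, t0 n] a c d
noncomputable def t2 (b n K : Nat) : Nat := tg n (g2 b n) K
noncomputable def g3 (b n a c d : Nat) : Nat := gs b n 3 [1, 2, 2] [t2 b n, t1 b n, t0 n] a c d
noncomputable def t3 (b n K : Nat) : Nat := tg n (g3 b n) K
noncomputable def g4 (b n a c d : Nat) : Nat :=
  gs b n 4 [1, 3, 6, 6] [t3 b n, t2 b n, t1 b n, t0 n] a c d
noncomputable def t4 (b n K : Nat) : Nat := tg n (g4 b n) K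
noncomputable def g5 (b n a c d : Nat) : Nat :=
  gs b n 5 [1, 4, 12, 24, 24] [t4 b n, t3 b n, t2 b n, t1 b n, t0 n] a c d
noncomputable def t5 (b n K : Nat) : Nat := tg n (g5 b n) K
noncomputable def g6 (b n a c d : Nat) : Nat :=
  gs b n 6 [1, 5, 20, 60, 120, 120] [t5 b n, t4 b n, t3 b n, t2 b n, t1 b n, t0 n] a c d

noncomputable def exO (V : Nat → Nat) (tr : List Nat) (b n a c d : Nat) : Bool :=
  frc (Nat.sub n (Nat.succ a)) fun m =>
    (fun KU t => sub55 (ndM a t (mn m (Nat.sub (Nat.div t 3) (Nat.succ a))))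
        (orL (fun x => Nat.add (tv V b a c d x) KU) tr KU))
      (Nat.sub (Nat.mul 36028797018963968 (rwM m))
        (Nat.shiftRight (g6 b n a c d) (Nat.mul 4368 (Nat.succ a))))
      (Nat.sub (Nat.add (Nat.mul 6 b) 15) (Nat.add (Nat.add a c) d))

/-- Exact check at level `b` for the triples of class `z`. -/
noncomputable def exA (V : Nat → Nat) (zT zN : List Nat) (ct : Tc) (b z : Nat) : Bool :=
  frc (nth 0 zN (Nat.add (Nat.mul 4 b) z)) fun n =>
    allB 16 fun a => allB a fun c => allB c fun d =>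
      cnd (Nat.beq (zc zT b a c d) z)
        (ct.get (Nat.add (Nat.add (Nat.mul 4096 a) (Nat.mul 64 c)) d) fun tr _ =>
          exO V (nth [] tr 0) b n a c d) true

end Vale.Agent.P181.K
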