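import Vale.Agent.P181.S.NDefs

/-! Tables of the class series `cs` below degree 78. -/

namespace Vale.Agent.P181

open Finset

def lapOk (ρ : List ℕ) (L : List ℤ) : Prop := ∀ k < 78, cs ρ k = L.getD k 0

def lapChk (r : ℕ) (L L' : List ℤ) : Bool :=
  (List.range 78).all fun k => L'.getD k 0 == L.getD k 0 + if r ≤ k then L'.getD (k - r) 0 else 0

lemma lap_rec {r : ℕ} (hr : 0 < r) (ρ : List ℕ) (k : ℕ) :
    cs (r :: ρ) k = cs ρ k + if r ≤ k then cs (r :: ρ) (k - r) else 0 := by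
  split_ifs with h
  · have e : k / r = (k - r) / r + 1 := by
      conv_lhs => rw [← Nat.sub_add_cancel h, Nat.add_div_right _ hr]
    rw [cs, cs, e, sum_range_succ', add_comm, mul_zero, Nat.sub_zero]
    congr 1
    refine sum_congr rfl fun i _ => ?_
    rw [Nat.sub_sub, mul_add, mul_one, add_comm]
  · rw [cs, Nat.div_eq_of_lt (not_le.1 h)]
    simp

lemma lap_step {r : ℕ} {ρ : List ℕ} {L L' : List ℤ} (h : lapOk ρ L)
    (hc : (decide (0 < r) && lapChk r L L') = true) : lapOk (r :: ρ) L' := by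
  rw [Bool.and_eq_true, decide_eq_true_eq] at hc
  intro k
  induction k using Nat.strong_induction_on with
  | _ k ih =>
    intro hk
    have := List.all_eq_true.1 hc.2 k (List.mem_range.2 hk)
    rw [beq_iff_eq] at this
    rw [lap_rec hc.1, this, h k hk]
    split_ifs with h1
    · rw [ih (k - r) (by omega) (by omega)]
    · rfl

lemma lap_nil : lapOk [] [1] := by
  intro k _
  cases k <;> rfl

def lapT1 : List ℤ :=
  [1, 1, 1, 1, 1, 1, 1, 1, 1, 1, 1, 1, 1, 1, 1, 1, 1, 1, 1, 1, 1, 1, 1, 1, 1, 1, 1, 1, 1, 1, 1,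
    1, 1, 1, 1, 1, 1, 1, 1, 1, 1, 1, 1, 1, 1, 1, 1, 1, 1, 1, 1, 1, 1, 1, 1, 1, 1, 1, 1, 1, 1, 1,
    1, 1, 1, 1, 1, 1, 1, 1, 1, 1, 1, 1, 1, 1, 1, 1]

lemma ok_lapT1 : lapOk [1] lapT1 := lap_step lap_nil (by decide +kernel)

def lapT11 : List ℤ :=
  [1, 2, 3, 4, 5, 6, 7, 8, 9, 10, 11, 12, 13, 14, 15, 16, 17, 18, 19, 20, 21, 22, 23, 24, 25, 26,
    27, 28, 29, 30, 31, 32, 33, 34, 35, 36, 37, 38, 39, 40, 41, 42, 43, 44, 45, 46, 47, 48, 49,
    50, 51, 52, 53, 54, 55, 56, 57, 58, 59, 60, 61, 62, 63, 64, 65, 66, 67, 68, 69, 70, 71, 72,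
    73, 74, 75, 76, 77, 78]

lemma ok_lapT11 : lapOk [1, 1] lapT11 := lap_step ok_lapT1 (by decide +kernel)

def lapT111 : List ℤ :=
  [1, 3, 6, 10, 15, 21, 28, 36, 45, 55, 66, 78, 91, 105, 120, 136, 153, 171, 190, 210, 231, 253,
    276, 300, 325, 351, 378, 406, 435, 465, 496, 528, 561, 595, 630, 666, 703, 741, 780, 820,
    861, 903, 946, 990, 1035, 1081, 1128, 1176, 1225, 1275, 1326, 1378, 1431, 1485, 1540, 1596,
    1653, 1711, 1770, 1830, 1891, 1953, 2016, 2080, 2145, 2211, 2278, 2346, 2415, 2485, 2556,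
    2628, 2701, 2775, 2850, 2926, 3003, 3081]

lemma ok_lapT111 : lapOk [1, 1, 1] lapT111 := lap_step ok_lapT11 (by decide +kernel)

def lapT1111 : List ℤ :=
  [1, 4, 10, 20, 35, 56, 84, 120, 165, 220, 286, 364, 455, 560, 680, 816, 969, 1140, 1330, 1540,
    1771, 2024, 2300, 2600, 2925, 3276, 3654, 4060, 4495, 4960, 5456, 5984, 6545, 7140, 7770,
    8436, 9139, 9880, 10660, 11480, 12341, 13244, 14190, 15180, 16215, 17296, 18424, 19600,
    20825, 22100, 23426, 24804, 26235, 27720, 29260, 30856, 32509, 34220, 35990, 37820, 39711,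
    41664, 43680, 45760, 47905, 50116, 52394, 54740, 57155, 59640, 62196, 64824, 67525, 70300,
    73150, 76076, 79079, 82160]

lemma ok_lapT1111 : lapOk [1, 1, 1, 1] lapT1111 := lap_step ok_lapT111 (by decide +kernel)

def lapT11111 : List ℤ :=
  [1, 5, 15, 35, 70, 126, 210, 330, 495, 715, 1001, 1365, 1820, 2380, 3060, 3876, 4845, 5985,
    7315, 8855, 10626, 12650, 14950, 17550, 20475, 23751, 27405, 31465, 35960, 40920, 46376,
    52360, 58905, 66045, 73815, 82251, 91390, 101270, 111930, 123410, 135751, 148995, 163185,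
    178365, 194580, 211876, 230300, 249900, 270725, 292825, 316251, 341055, 367290, 395010,
    424270, 455126, 487635, 521855, 557845, 595665, 635376, 677040, 720720, 766480, 814385,
    864501, 916895, 971635, 1028790, 1088430, 1150626, 1215450, 1282975, 1353275, 1426425,
    1502501, 1581580, 1663740]

lemma ok_lapT11111 : lapOk [1, 1, 1, 1, 1] lapT11111 := lap_step ok_lapT1111 (by decide +kernel)

def lapT111111 : List ℤ :=
  [1, 6, 21, 56, 126, 252, 462, 792, 1287, 2002, 3003, 4368, 6188, 8568, 11628, 15504, 20349,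
    26334, 33649, 42504, 53130, 65780, 80730, 98280, 118755, 142506, 169911, 201376, 237336,
    278256, 324632, 376992, 435897, 501942, 575757, 658008, 749398, 850668, 962598, 1086008,
    1221759, 1370754, 1533939, 1712304, 1906884, 2118760, 2349060, 2598960, 2869685, 3162510,
    3478761, 3819816, 4187106, 4582116, 5006386, 5461512, 5949147, 6471002, 7028847, 7624512,
    8259888, 8936928, 9657648, 10424128, 11238513, 12103014, 13019909, 13991544, 15020334,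
    16108764, 17259390, 18474840, 19757815, 21111090, 22537515, 24040016, 25621596, 27285336]

lemma ok_lapT111111 : lapOk [1, 1, 1, 1, 1, 1] lapT111111 := lap_step ok_lapT11111 (by decide +kernel)

def lapT21111 : List ℤ :=
  [1, 4, 11, 24, 46, 80, 130, 200, 295, 420, 581, 784, 1036, 1344, 1716, 2160, 2685, 3300, 4015,
    4840, 5786, 6864, 8086, 9464, 11011, 12740, 14665, 16800, 19160, 21760, 24616, 27744, 31161,
    34884, 38931, 43320, 48070, 53200, 58730, 64680, 71071, 77924, 85261, 93104, 101476, 110400,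
    119900, 130000, 140725, 152100, 164151, 176904, 190386, 204624, 219646, 235480, 252155,
    269700, 288145, 307520, 327856, 349184, 371536, 394944, 419441, 445060, 471835, 499800,
    528990, 559440, 591186, 624264, 658711, 694564, 731861, 770640, 810940, 852800]

lemma ok_lapT21111 : lapOk [2, 1, 1, 1, 1] lapT21111 := lap_step ok_lapT1111 (by decide +kernel)

def lapT211 : List ℤ :=
  [1, 2, 4, 6, 9, 12, 16, 20, 25, 30, 36, 42, 49, 56, 64, 72, 81, 90, 100, 110, 121, 132, 144,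
    156, 169, 182, 196, 210, 225, 240, 256, 272, 289, 306, 324, 342, 361, 380, 400, 420, 441,
    462, 484, 506, 529, 552, 576, 600, 625, 650, 676, 702, 729, 756, 784, 812, 841, 870, 900,
    930, 961, 992, 1024, 1056, 1089, 1122, 1156, 1190, 1225, 1260, 1296, 1332, 1369, 1406, 1444,
    1482, 1521, 1560]

lemma ok_lapT211 : lapOk [2, 1, 1] lapT211 := lap_step ok_lapT11 (by decide +kernel)

def lapT2211 : List ℤ :=
  [1, 2, 5, 8, 14, 20, 30, 40, 55, 70, 91, 112, 140, 168, 204, 240, 285, 330, 385, 440, 506, 572,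
    650, 728, 819, 910, 1015, 1120, 1240, 1360, 1496, 1632, 1785, 1938, 2109, 2280, 2470, 2660,
    2870, 3080, 3311, 3542, 3795, 4048, 4324, 4600, 4900, 5200, 5525, 5850, 6201, 6552, 6930,
    7308, 7714, 8120, 8555, 8990, 9455, 9920, 10416, 10912, 11440, 11968, 12529, 13090, 13685,
    14280, 14910, 15540, 16206, 16872, 17575, 18278, 19019, 19760, 20540, 21320]

lemma ok_lapT2211 : lapOk [2, 2, 1, 1] lapT2211 := lap_step ok_lapT211 (by decide +kernel)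

def lapT2 : List ℤ :=
  [1, 0, 1, 0, 1, 0, 1, 0, 1, 0, 1, 0, 1, 0, 1, 0, 1, 0, 1, 0, 1, 0, 1, 0, 1, 0, 1, 0, 1, 0, 1,
    0, 1, 0, 1, 0, 1, 0, 1, 0, 1, 0, 1, 0, 1, 0, 1, 0, 1, 0, 1, 0, 1, 0, 1, 0, 1, 0, 1, 0, 1, 0,
    1, 0, 1, 0, 1, 0, 1, 0, 1, 0, 1, 0, 1, 0, 1, 0]

lemma ok_lapT2 : lapOk [2] lapT2 := lap_step lap_nil (by decide +kernel)

def lapT22 : List ℤ :=
  [1, 0, 2, 0, 3, 0, 4, 0, 5, 0, 6, 0, 7, 0, 8, 0, 9, 0, 10, 0, 11, 0, 12, 0, 13, 0, 14, 0, 15,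
    0, 16, 0, 17, 0, 18, 0, 19, 0, 20, 0, 21, 0, 22, 0, 23, 0, 24, 0, 25, 0, 26, 0, 27, 0, 28, 0,
    29, 0, 30, 0, 31, 0, 32, 0, 33, 0, 34, 0, 35, 0, 36, 0, 37, 0, 38, 0, 39, 0]

lemma ok_lapT22 : lapOk [2, 2] lapT22 := lap_step ok_lapT2 (by decide +kernel)

def lapT222 : List ℤ :=
  [1, 0, 3, 0, 6, 0, 10, 0, 15, 0, 21, 0, 28, 0, 36, 0, 45, 0, 55, 0, 66, 0, 78, 0, 91, 0, 105,
    0, 120, 0, 136, 0, 153, 0, 171, 0, 190, 0, 210, 0, 231, 0, 253, 0, 276, 0, 300, 0, 325, 0,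
    351, 0, 378, 0, 406, 0, 435, 0, 465, 0, 496, 0, 528, 0, 561, 0, 595, 0, 630, 0, 666, 0, 703,
    0, 741, 0, 780, 0]

lemma ok_lapT222 : lapOk [2, 2, 2] lapT222 := lap_step ok_lapT22 (by decide +kernel)

def lapT3111 : List ℤ :=
  [1, 3, 6, 11, 18, 27, 39, 54, 72, 94, 120, 150, 185, 225, 270, 321, 378, 441, 511, 588, 672,
    764, 864, 972, 1089, 1215, 1350, 1495, 1650, 1815, 1991, 2178, 2376, 2586, 2808, 3042, 3289,
    3549, 3822, 4109, 4410, 4725, 5055, 5400, 5760, 6136, 6528, 6936, 7361, 7803, 8262, 8739,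
    9234, 9747, 10279, 10830, 11400, 11990, 12600, 13230, 13881, 14553, 15246, 15961, 16698,
    17457, 18239, 19044, 19872, 20724, 21600, 22500, 23425, 24375, 25350, 26351, 27378, 28431]

lemma ok_lapT3111 : lapOk [3, 1, 1, 1] lapT3111 := lap_step ok_lapT111 (by decide +kernel)

def lapT21 : List ℤ :=
  [1, 1, 2, 2, 3, 3, 4, 4, 5, 5, 6, 6, 7, 7, 8, 8, 9, 9, 10, 10, 11, 11, 12, 12, 13, 13, 14, 14,
    15, 15, 16, 16, 17, 17, 18, 18, 19, 19, 20, 20, 21, 21, 22, 22, 23, 23, 24, 24, 25, 25, 26,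
    26, 27, 27, 28, 28, 29, 29, 30, 30, 31, 31, 32, 32, 33, 33, 34, 34, 35, 35, 36, 36, 37, 37,
    38, 38, 39, 39]

lemma ok_lapT21 : lapOk [2, 1] lapT21 := lap_step ok_lapT1 (by decide +kernel)

def lapT321 : List ℤ :=
  [1, 1, 2, 3, 4, 5, 7, 8, 10, 12, 14, 16, 19, 21, 24, 27, 30, 33, 37, 40, 44, 48, 52, 56, 61,
    65, 70, 75, 80, 85, 91, 96, 102, 108, 114, 120, 127, 133, 140, 147, 154, 161, 169, 176, 184,
    192, 200, 208, 217, 225, 234, 243, 252, 261, 271, 280, 290, 300, 310, 320, 331, 341, 352,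
    363, 374, 385, 397, 408, 420, 432, 444, 456, 469, 481, 494, 507, 520, 533]

lemma ok_lapT321 : lapOk [3, 2, 1] lapT321 := lap_step ok_lapT21 (by decide +kernel)

def lapT3 : List ℤ :=
  [1, 0, 0, 1, 0, 0, 1, 0, 0, 1, 0, 0, 1, 0, 0, 1, 0, 0, 1, 0, 0, 1, 0, 0, 1, 0, 0, 1, 0, 0, 1,
    0, 0, 1, 0, 0, 1, 0, 0, 1, 0, 0, 1, 0, 0, 1, 0, 0, 1, 0, 0, 1, 0, 0, 1, 0, 0, 1, 0, 0, 1, 0,
    0, 1, 0, 0, 1, 0, 0, 1, 0, 0, 1, 0, 0, 1, 0, 0]

lemma ok_lapT3 : lapOk [3] lapT3 := lap_step lap_nil (by decide +kernel)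

def lapT33 : List ℤ :=
  [1, 0, 0, 2, 0, 0, 3, 0, 0, 4, 0, 0, 5, 0, 0, 6, 0, 0, 7, 0, 0, 8, 0, 0, 9, 0, 0, 10, 0, 0, 11,
    0, 0, 12, 0, 0, 13, 0, 0, 14, 0, 0, 15, 0, 0, 16, 0, 0, 17, 0, 0, 18, 0, 0, 19, 0, 0, 20, 0,
    0, 21, 0, 0, 22, 0, 0, 23, 0, 0, 24, 0, 0, 25, 0, 0, 26, 0, 0]

lemma ok_lapT33 : lapOk [3, 3] lapT33 := lap_step ok_lapT3 (by decide +kernel)

def lapT411 : List ℤ :=
  [1, 2, 3, 4, 6, 8, 10, 12, 15, 18, 21, 24, 28, 32, 36, 40, 45, 50, 55, 60, 66, 72, 78, 84, 91,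
    98, 105, 112, 120, 128, 136, 144, 153, 162, 171, 180, 190, 200, 210, 220, 231, 242, 253, 264,
    276, 288, 300, 312, 325, 338, 351, 364, 378, 392, 406, 420, 435, 450, 465, 480, 496, 512,
    528, 544, 561, 578, 595, 612, 630, 648, 666, 684, 703, 722, 741, 760, 780, 800]

lemma ok_lapT411 : lapOk [4, 1, 1] lapT411 := lap_step ok_lapT11 (by decide +kernel)

def lapT42 : List ℤ :=
  [1, 0, 1, 0, 2, 0, 2, 0, 3, 0, 3, 0, 4, 0, 4, 0, 5, 0, 5, 0, 6, 0, 6, 0, 7, 0, 7, 0, 8, 0, 8,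
    0, 9, 0, 9, 0, 10, 0, 10, 0, 11, 0, 11, 0, 12, 0, 12, 0, 13, 0, 13, 0, 14, 0, 14, 0, 15, 0,
    15, 0, 16, 0, 16, 0, 17, 0, 17, 0, 18, 0, 18, 0, 19, 0, 19, 0, 20, 0]

lemma ok_lapT42 : lapOk [4, 2] lapT42 := lap_step ok_lapT2 (by decide +kernel)

def lapT51 : List ℤ :=
  [1, 1, 1, 1, 1, 2, 2, 2, 2, 2, 3, 3, 3, 3, 3, 4, 4, 4, 4, 4, 5, 5, 5, 5, 5, 6, 6, 6, 6, 6, 7,
    7, 7, 7, 7, 8, 8, 8, 8, 8, 9, 9, 9, 9, 9, 10, 10, 10, 10, 10, 11, 11, 11, 11, 11, 12, 12, 12,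
    12, 12, 13, 13, 13, 13, 13, 14, 14, 14, 14, 14, 15, 15, 15, 15, 15, 16, 16, 16]

lemma ok_lapT51 : lapOk [5, 1] lapT51 := lap_step ok_lapT1 (by decide +kernel)

def lapT6 : List ℤ :=
  [1, 0, 0, 0, 0, 0, 1, 0, 0, 0, 0, 0, 1, 0, 0, 0, 0, 0, 1, 0, 0, 0, 0, 0, 1, 0, 0, 0, 0, 0, 1,
    0, 0, 0, 0, 0, 1, 0, 0, 0, 0, 0, 1, 0, 0, 0, 0, 0, 1, 0, 0, 0, 0, 0, 1, 0, 0, 0, 0, 0, 1, 0,
    0, 0, 0, 0, 1, 0, 0, 0, 0, 0, 1, 0, 0, 0, 0, 0]

lemma ok_lapT6 : lapOk [6] lapT6 := lap_step lap_nil (by decide +kernel)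

def lapT : List (List ℤ) :=
  [lapT111111, lapT21111, lapT2211, lapT222, lapT3111, lapT321, lapT33, lapT411, lapT42, lapT51,
    lapT6]

lemma lap_tab {t : ℕ} (ht : t < 11) : lapOk (cls.getD t ([], 0)).1 (lapT.getD t []) := by
  interval_cases t
  exacts [ok_lapT111111, ok_lapT21111, ok_lapT2211, ok_lapT222, ok_lapT3111, ok_lapT321, ok_lapT33,
    ok_lapT411, ok_lapT42, ok_lapT51, ok_lapT6]

end Vale.Agent.P181
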