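import Vale.Agent.P181.R.SymC
import Vale.Agent.P181.S.DTab

/-! Definitions for the finite check: dehomogenized coefficients, the recursion operator,
the stable value of the multiplicity in `h_6[h_b]`. -/

namespace Vale.Agent.P181

open MvPolynomial Finset

/-- Coefficient of `x^(T - p - q - a - c - d, p, q, a, c, d)`. -/
noncomputable def co (T : ℕ) (g : MvPolynomial (Fin 6) ℤ) (p q a c d : ℕ) : ℤ :=
  if p + q + a + c + d ≤ T then coeff (fs ![T - (p + q + a + c + d), p, q, a, c, d]) g else 0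

/-- Coefficients of `a_ρ h_j[h_e]`. -/
noncomputable def cP (j e : ℕ) : ℕ → ℕ → ℕ → ℕ → ℕ → ℤ :=
  co (j * e + 15) (alt 6 (rho 6) * pl 6 j e)

def PP (k : ℕ) (F : ℕ → ℕ → ℕ → ℕ → ℕ → ℤ) (s p q a c d : ℕ) : ℤ :=
  ∑ y ∈ range (s + 1), ∑ z ∈ range (s + 1 - y),
    if k * (s - y - z) ≤ a ∧ k * y ≤ c ∧ k * z ≤ d then
      F p q (a - k * (s - y - z)) (c - k * y) (d - k * z) else 0

/-- Multiplication by `h_e (x_1^k, …, x_6^k)` on dehomogenized coefficients. -/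
def HH (e k : ℕ) (F : ℕ → ℕ → ℕ → ℕ → ℕ → ℤ) (p q a c d : ℕ) : ℤ :=
  ∑ l ∈ range (e + 1), ∑ i ∈ range (e + 1 - l), ∑ s ∈ range (e + 1 - l - i),
    if k * i ≤ p ∧ k * l ≤ q then PP k F s (p - k * i) (q - k * l) a c d else 0

/-- Vandermonde product of six integers. -/
def vd6 (x p q a c d : ℤ) : ℤ :=
  (x - p) * (x - q) * (x - a) * (x - c) * (x - d) * ((p - q) * (p - a) * (p - c) * (p - d)) *
    ((q - a) * (q - c) * (q - d)) * ((a - c) * (a - d)) * (c - d)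

/-- Coefficients of `a_ρ`. -/
def A0 (p q a c d : ℕ) : ℤ :=
  if p ≤ 5 ∧ q ≤ 5 ∧ a ≤ 5 ∧ c ≤ 5 ∧ d ≤ 5 ∧ p + q + a + c + d ≤ 15 then
    vd6 (15 - (p + q + a + c + d) : ℕ) p q a c d / 34560 else 0

/-- Cycle types of `S_6` with class sizes. -/
def cls : List (List ℕ × ℤ) :=
  [([1, 1, 1, 1, 1, 1], 1), ([2, 1, 1, 1, 1], 15), ([2, 2, 1, 1], 45), ([2, 2, 2], 15),
    ([3, 1, 1, 1], 40), ([3, 2, 1], 120), ([3, 3], 40), ([4, 1, 1], 90), ([4, 2], 90),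
    ([5, 1], 144), ([6], 120)]

/-- `p_ρ[h_b]`. -/
noncomputable def PR (b : ℕ) (ρ : List ℕ) : MvPolynomial (Fin 6) ℤ :=
  (ρ.map fun r => expand r (hsymm (Fin 6) ℤ b)).prod

/-- Coefficients of `∏ 1 / (1 - u ^ r)`. -/
def cs : List ℕ → ℕ → ℤ
  | [], k => if k = 0 then 1 else 0
  | r :: ρ, k => ∑ i ∈ range (k / r + 1), cs ρ (k - r * i)

def cz (ρ : List ℕ) (k : ℤ) : ℤ := if 0 ≤ k then cs ρ k.toNat else 0

/-- Coefficient of `z ^ k` in `∏ 1 / (1 - u_r z ^ ρ_r)`. -/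
noncomputable def CC {m : ℕ} (ρ : Fin m → ℕ) (k : ℤ) : MvPolynomial (Fin m) ℤ :=
  ∑ γ ∈ (Fintype.piFinset fun _ : Fin m => range (k.toNat + 1)) with
    ((∑ r, ρ r * γ r : ℕ) : ℤ) = k, monomial (fs γ) 1

noncomputable def SS {m : ℕ} (ρ : Fin m → ℕ) (l : Fin 6 → ℕ) : MvPolynomial (Fin m) ℤ :=
  (Matrix.of fun i j : Fin 6 => CC ρ ((l i : ℤ) - (i : ℕ) + (j : ℕ))).det

/-- Jacobi-Trudi determinant with the first row replaced by ones. -/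
def U6 (ρ : List ℕ) (ν : Fin 5 → ℕ) : ℤ :=
  (Matrix.of fun i j : Fin 6 =>
    (Fin.cases 1 (fun i' : Fin 5 => cz ρ ((ν i' : ℤ) - 5 + (j : ℕ))) i : ℤ)).det

/-- `720` times the stable multiplicity. -/
def UU (p q a c d : ℕ) : ℤ := (cls.map fun x => x.2 * U6 x.1 ![p, q, a, c, d]).sum

/-- Column operations, one family of five polynomials per class. -/
def pb : List (List (List ℤ)) :=
  [[[1, -1], [1, -2, 1], [1, -3, 3, -1], [1, -4, 6, -4, 1], [1, -5, 10, -10, 5, -1]],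
    [[1, -1], [1, -2, 1], [1, -3, 3, -1], [1, -4, 6, -4, 1], [1, -5, 10, -10, 5, -1]],
    [[1, -1], [1, -2, 1], [1, -3, 3, -1], [1, -2, 0, 2, -1], [1, -3, 2, 2, -3, 1]],
    [[1, -1], [1, 0, -1], [1, -1, -1, 1], [1, 0, -2, 0, 1], [1, -1, -2, 2, 1, -1]],
    [[1, -1], [1, -2, 1], [1, -3, 3, -1], [1, -4, 6, -4, 1], [0, 1, -4, 6, -4, 1]],
    [[1, -1], [1, -2, 1], [1, -3, 3, -1], [0, 1, -3, 3, -1], [0, 0, 1, -3, 3, -1]],
    [[1, -1], [0, 1, -1], [1, 0, 0, -1], [1, -1, 0, -1, 1], [0, 1, -1, 0, -1, 1]],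
    [[1, -1], [1, -2, 1], [1, -3, 3, -1], [0, 1, -3, 3, -1], [0, 0, 1, -3, 3, -1]],
    [[1, -1], [1, 0, -1], [1, -1, -1, 1], [0, 1, -1, -1, 1], [0, 0, 1, -1, -1, 1]],
    [[1, -1], [1, -2, 1], [0, 1, -2, 1], [0, 0, 1, -2, 1], [0, 0, 0, 1, -2, 1]],
    [[1, -1], [0, 1, -1], [0, 0, 1, -1], [0, 0, 0, 1, -1], [0, 0, 0, 0, 1, -1]]]

def DD (t j k : ℕ) : ℤ :=
  ∑ s ∈ range 6, ((pb.getD t []).getD j []).getD s 0 * cz (cls.getD t ([], 0)).1 ((k : ℤ) - s)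

/-- Class sizes times the sign of the column operation. -/
def wE : List ℤ := [1, 15, 45, 15, -40, -120, 40, -90, -90, 144, 120]

/-- Laplace expansion data: two columns, the complementary three columns, the sign. -/
def j1L : List ℕ := [0, 0, 0, 0, 1, 1, 1, 2, 2, 3]
def j2L : List ℕ := [1, 2, 3, 4, 2, 3, 4, 3, 4, 4]
def j3L : List ℕ := [2, 1, 1, 1, 0, 0, 0, 0, 0, 0]
def j4L : List ℕ := [3, 3, 2, 2, 3, 2, 2, 1, 1, 1]
def j5L : List ℕ := [4, 4, 4, 3, 4, 4, 3, 4, 3, 2]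
def sgL : List ℤ := [1, -1, 1, -1, 1, -1, 1, 1, -1, 1]

def m2 (D : ℕ → ℕ → ℤ) (i j p q : ℕ) : ℤ := D i p * D j q - D j p * D i q

def m3 (D : ℕ → ℕ → ℤ) (i j k a c d : ℕ) : ℤ :=
  D i a * m2 D j k c d - D j a * m2 D i k c d + D k a * m2 D i j c d

def scU (D : ℕ → ℕ → ℕ → ℤ) (t u a c d : ℕ) : ℤ :=
  wE.getD t 0 * sgL.getD u 0 * m3 (D t) (j3L.getD u 0) (j4L.getD u 0) (j5L.getD u 0) a c d

def arU (D : ℕ → ℕ → ℕ → ℤ) (t u p q : ℕ) : ℤ := m2 (D t) (j1L.getD u 0) (j2L.getD u 0) p q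

end Vale.Agent.P181
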